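import Vale.Agent.P257.Main.Final
import Vale.Agent.P251.St.Result2

/-!
# P257: the Smith-Toda complex `V(4)` exists at every prime `p ≥ 11`

There is a stable homotopy category with a suspension spectrum functor; in each of them, and for
every prime `p ≥ 11`, the Brown-Peterson spectrum `BP` and a Smith-Toda complex `V(4)` exist: a
finite `p`-local spectrum `X` with `BP_* X ≅ BP_* / (p, v_1, v_2, v_3, v_4)` as comodules. Moreover,
at every odd prime, `V(n)` exists if `V(n + 1)` exists.

The statement uses only the definitions of `P251/T/Axioms.lean`, `P251/St/Base.lean`,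
`P251/St/Chrom.lean`, `P257/H702/Statement.lean`, `P257/H702/LawDef.lean`,
`P257/H80/HazDefs.lean` and `P257/H80/StBP.lean`.
-/

namespace Vale.Agent.Results.P257.VFour

open Vale.Agent.P251.St Vale.Agent.P257.St

theorem result : (∃ T : SHCat, Nonempty (Susp T)) ∧ ∀ (T : SHCat) (S : Susp T) (p : ℕ), p.Prime →
    (11 ≤ p → HasV S p 4) ∧ (p ≠ 2 → ∀ n : ℕ, HasV S p (n + 1) → HasV S p n) :=
  ⟨nonempty_susp, fun _ S _ hp => ⟨fun h11 => Vale.Agent.P257.Main.hasV_four S hp h11,
    fun h2 _ h => Vale.Agent.P257.H762.hasV_mono hp h2 h⟩⟩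

end Vale.Agent.Results.P257.VFour
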